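import Mathlib

/-!
Lipschitz maps: images of null sets, a volume inequality for maps fixing the outside of a compact
set, and Lipschitz bounds from almost everywhere derivative bounds.
-/

open Set MeasureTheory Measure Module Metric Filter
open scoped NNReal ENNReal Topology

noncomputable section

namespace Vale.Agent.P084.Fin

variable {E : Type*} [NormedAddCommGroup E] [NormedSpace ℝ E] [FiniteDimensional ℝ E]
  [MeasurableSpace E] [BorelSpace E] (μ : Measure E) [IsAddHaarMeasure μ]

lemma image_null {C : ℝ≥0} {Φ : E → E} (hΦ : LipschitzWith C Φ) {s : Set E} (hs : μ s = 0) :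
    μ (Φ '' s) = 0 := by
  have h1 : (μH[finrank ℝ E] : Measure E) ≪ μ := absolutelyContinuous_isAddHaarMeasure _ _
  have h2 : μ ≪ (μH[finrank ℝ E] : Measure E) := absolutelyContinuous_isAddHaarMeasure _ _
  refine h2 ?_
  have := hΦ.hausdorffMeasure_image_le (d := (finrank ℝ E : ℝ)) (by positivity) s
  rw [h1 hs, mul_zero] at this
  exact le_antisymm this bot_le

lemma det_one_add_pos {A : E →L[ℝ] E} (hA : ‖A‖ < 1) : 0 < (1 + A).det := by
  have hne : ∀ r ∈ Icc (0 : ℝ) 1, (1 + r • A).det ≠ 0 := by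
    intro r hr hc
    obtain ⟨v, hv, hv0⟩ := Submodule.exists_mem_ne_zero_of_ne_bot
      (bot_lt_iff_ne_bot.mp (LinearMap.bot_lt_ker_of_det_eq_zero hc))
    have h1 : v + r • A v = 0 := by simpa using hv
    have h2 : ‖v‖ ≤ ‖A‖ * ‖v‖ := by
      calc ‖v‖ = ‖r • A v‖ := (congrArg norm (eq_neg_of_add_eq_zero_left h1)).trans (norm_neg _)
        _ ≤ 1 * (‖A‖ * ‖v‖) := by
            rw [norm_smul, Real.norm_eq_abs, abs_of_nonneg hr.1]
            exact mul_le_mul hr.2 (A.le_opNorm v) (norm_nonneg _) zero_le_one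
        _ = ‖A‖ * ‖v‖ := one_mul _
    nlinarith [norm_pos_iff.mpr hv0]
  have hc : ContinuousOn (fun r : ℝ ↦ (1 + r • A).det) (Icc 0 1) :=
    (ContinuousLinearMap.continuous_det.comp (by fun_prop)).continuousOn
  by_contra hle
  have h0 : (1 + (0 : ℝ) • A).det = 1 := by
    simp [ContinuousLinearMap.det]
  have h1 : (1 + (1 : ℝ) • A).det ≤ 0 := by simpa using hle
  obtain ⟨r, hr, hr0⟩ := intermediate_value_Icc' zero_le_one hc
    (show (0 : ℝ) ∈ Icc _ _ from ⟨h1, by rw [h0]; exact zero_le_one⟩)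
  exact hne r hr hr0

/-- `t ↦ det (1 + t • A)` is interpolated by any `n + 1` values. -/
lemma det_interpolate (A : E →L[ℝ] E) {v : ℕ → ℝ}
    (hv : Set.InjOn v (Finset.range (finrank ℝ E + 1))) (t : ℝ) :
    (1 + t • A).det = ∑ k ∈ Finset.range (finrank ℝ E + 1),
      (1 + v k • A).det * (Lagrange.basis (Finset.range (finrank ℝ E + 1)) v k).eval t := by
  classical
  let b := Module.finBasis ℝ E
  set M := LinearMap.toMatrix b b (A : E →ₗ[ℝ] E)
  let p : Polynomial ℝ :=
    Matrix.det ((Polynomial.X : Polynomial ℝ) • M.map Polynomial.C + (1 : Matrix _ _ ℝ).map Polynomial.C)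
  have hp : ∀ r, p.eval r = (1 + r • A).det := fun r ↦ by
    have : (Polynomial.evalRingHom r).mapMatrix
        ((Polynomial.X : Polynomial ℝ) • M.map Polynomial.C + (1 : Matrix _ _ ℝ).map Polynomial.C)
        = LinearMap.toMatrix b b ((1 + r • A : E →L[ℝ] E) : E →ₗ[ℝ] E) := by
      ext i j
      simp [M, LinearMap.toMatrix_apply, Matrix.one_apply, apply_ite, Finsupp.single_apply]
      split_ifs <;> simp_all <;> ring
    rw [← Polynomial.coe_evalRingHom, RingHom.map_det, this, LinearMap.det_toMatrix]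
  have hdeg : p.degree < (Finset.range (finrank ℝ E + 1)).card := by
    rw [Finset.card_range]
    refine lt_of_le_of_lt Polynomial.degree_le_natDegree (Nat.cast_lt.mpr (Nat.lt_succ_of_le ?_))
    exact (Polynomial.natDegree_det_X_add_C_le M 1).trans (by simp)
  have := congrArg (Polynomial.eval t) (Lagrange.eq_interpolate hv hdeg)
  rw [Lagrange.interpolate_apply, Polynomial.eval_finsetSum] at this
  simpa [hp] using this

variable {ψ : E → E} {L : ℝ≥0}

lemma integral_det_small (hψ : LipschitzWith L ψ) {R : ℝ} (h0 : ∀ y, R ≤ ‖y‖ → ψ y = 0)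
    {t : ℝ} (ht : 0 ≤ t) (htL : t * L < 1) :
    ∫ y in closedBall 0 R, (1 + t • fderiv ℝ ψ y).det ∂μ = μ.real (closedBall 0 R) := by
  set K : E → E := fun y ↦ y + t • ψ y
  have hlip : ∀ y z, ‖t • ψ y - t • ψ z‖ ≤ t * L * ‖y - z‖ := fun y z ↦ by
    rw [← smul_sub, norm_smul, Real.norm_eq_abs, abs_of_nonneg ht, mul_assoc]
    exact mul_le_mul_of_nonneg_left (hψ.norm_sub_le y z) ht
  have hinj : Function.Injective K := fun y z h ↦ by
    have h1 : y - z = t • ψ z - t • ψ y := by
      rw [sub_eq_sub_iff_add_eq_add, add_comm (t • ψ z)]; exact h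
    have h2 := hlip z y
    rw [← h1, norm_sub_rev z y] at h2
    by_contra hne
    nlinarith [norm_pos_iff.mpr (sub_ne_zero.mpr hne)]
  have hsurj : Function.Surjective K := fun w ↦ by
    have hc : ContractingWith (Real.toNNReal (t * L)) (fun y ↦ w - t • ψ y) := by
      refine ⟨by rw [Real.toNNReal_lt_one]; exact htL, LipschitzWith.of_dist_le_mul fun y z ↦ ?_⟩
      rw [Real.coe_toNNReal _ (by positivity), dist_eq_norm, dist_eq_norm, sub_sub_sub_cancel_left,
        norm_sub_rev y z]
      exact hlip z y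
    have hfix : w - t • ψ hc.fixedPoint = hc.fixedPoint := hc.fixedPoint_isFixedPt
    exact ⟨_, (sub_eq_iff_eq_add.mp hfix).symm⟩
  have himg : K '' closedBall 0 R = closedBall 0 R := by
    have hout : ∀ y, y ∉ closedBall (0 : E) R → K y = y := fun y hy ↦ by
      have : R ≤ ‖y‖ := (not_le.mp (fun hc ↦ hy (mem_closedBall_zero_iff.mpr hc))).le
      simp [K, h0 y this]
    refine Subset.antisymm ?_ fun w hw ↦ ?_
    · rintro _ ⟨y, hy, rfl⟩
      by_contra hw
      exact hw ((hinj (hout _ hw)).symm ▸ hy)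
    · obtain ⟨y, rfl⟩ := hsurj w
      refine ⟨y, ?_, rfl⟩
      by_contra hy
      exact hy (hout y hy ▸ hw)
  set s := closedBall (0 : E) R
  set s' := s ∩ {y | DifferentiableAt ℝ ψ y}
  have hs' : MeasurableSet s' := measurableSet_closedBall.inter (measurableSet_of_differentiableAt ℝ ψ)
  have hdiff : ∀ᵐ y ∂μ, DifferentiableAt ℝ ψ y := hψ.ae_differentiableAt
  have hae : s' =ᵐ[μ] s := by
    filter_upwards [hdiff] with y hy
    exact propext ⟨fun h ↦ h.1, fun h ↦ ⟨h, hy⟩⟩
  have hK : LipschitzWith (1 + Real.toNNReal t * L) K :=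
    LipschitzWith.id.add (LipschitzWith.of_dist_le_mul fun y z ↦ by
      rw [dist_eq_norm, dist_eq_norm, NNReal.coe_mul, Real.coe_toNNReal _ ht]
      exact hlip y z)
  have hd : ∀ y ∈ s', HasFDerivWithinAt K (1 + t • fderiv ℝ ψ y) s' y := fun y hy ↦
    ((hasFDerivAt_id y).add (hy.2.hasFDerivAt.const_smul t)).hasFDerivWithinAt
  have hpos : ∀ y, 0 < (1 + t • fderiv ℝ ψ y).det := fun y ↦ det_one_add_pos (by
    rw [norm_smul, Real.norm_eq_abs, abs_of_nonneg ht]
    exact lt_of_le_of_lt (mul_le_mul_of_nonneg_left (norm_fderiv_le_of_lipschitz ℝ hψ) ht) htL)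
  have hval := integral_image_eq_integral_abs_det_fderiv_smul μ hs' hd hinj.injOn (fun _ ↦ (1 : ℝ))
  have himg' : μ (K '' s') = μ s := by
    refine le_antisymm ((measure_mono (image_mono inter_subset_left)).trans_eq (by rw [himg])) ?_
    calc μ s = μ (K '' s) := by rw [himg]
      _ ≤ μ (K '' s' ∪ K '' (s \ s')) := by
          rw [← image_union, union_sdiff_self]
          exact measure_mono (image_mono subset_union_right)
      _ ≤ μ (K '' s') + μ (K '' (s \ s')) := measure_union_le _ _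
      _ = μ (K '' s') := by
          rw [image_null μ hK (ae_eq_set.mp hae).2, add_zero]
  rw [setIntegral_const, smul_eq_mul, mul_one] at hval
  rw [← setIntegral_congr_set hae]
  calc ∫ y in s', (1 + t • fderiv ℝ ψ y).det ∂μ
      = ∫ y in s', |(1 + t • fderiv ℝ ψ y).det| • (1 : ℝ) ∂μ := by
        refine setIntegral_congr_fun hs' fun y _ ↦ ?_
        simp [abs_of_pos (hpos y)]
    _ = μ.real (K '' s') := hval.symm
    _ = μ.real s := by simp [measureReal_def, himg']

lemma integrableOn_det (hψ : LipschitzWith L ψ) {R : ℝ} (t : ℝ) :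
    IntegrableOn (fun y ↦ (1 + t • fderiv ℝ ψ y).det) (closedBall 0 R) μ := by
  have hc : Continuous fun A : E →L[ℝ] E ↦ (1 + t • A).det :=
    ContinuousLinearMap.continuous_det.comp (by fun_prop)
  obtain ⟨b, hb⟩ := ((isCompact_closedBall (0 : E →L[ℝ] E) L).image hc).isBounded.exists_norm_le
  refine IntegrableOn.of_bound measure_closedBall_lt_top ?_ b (Eventually.of_forall fun y ↦ ?_)
  · exact (hc.measurable.comp (measurable_fderiv ℝ ψ)).aestronglyMeasurable
  · exact hb _ ⟨_, mem_closedBall_zero_iff.mpr (norm_fderiv_le_of_lipschitz ℝ hψ), rfl⟩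

lemma integral_det_eq (hψ : LipschitzWith L ψ) {R : ℝ} (h0 : ∀ y, R ≤ ‖y‖ → ψ y = 0) :
    ∫ y in closedBall 0 R, (1 + fderiv ℝ ψ y).det ∂μ = μ.real (closedBall 0 R) := by
  classical
  set S := Finset.range (finrank ℝ E + 1)
  let v : ℕ → ℝ := fun k ↦ 1 / ((L + 1) * (k + 1))
  have hv : Set.InjOn v S := fun a _ b _ h ↦ by
    simp only [v, one_div, inv_inj] at h
    exact_mod_cast add_right_cancel (mul_left_cancel₀ (by positivity) h)
  have hvL : ∀ k, 0 ≤ v k ∧ v k * L < 1 := fun k ↦ by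
    refine ⟨by positivity, ?_⟩
    simp only [v]
    rw [div_mul_eq_mul_div, one_mul, div_lt_one (by positivity)]
    nlinarith [L.coe_nonneg, (k.cast_nonneg : (0 : ℝ) ≤ k)]
  set c : ℕ → ℝ := fun k ↦ (Lagrange.basis S v k).eval 1
  have hc : ∑ k ∈ S, c k = 1 := by
    have := congrArg (Polynomial.eval (1 : ℝ)) (Lagrange.sum_basis hv ⟨0, by simp [S]⟩)
    simpa [Polynomial.eval_finsetSum, c] using this
  have key : ∀ y, (1 + fderiv ℝ ψ y).det = ∑ k ∈ S, (1 + v k • fderiv ℝ ψ y).det * c k :=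
    fun y ↦ by simpa [S, c] using det_interpolate (fderiv ℝ ψ y) hv 1
  simp only [key]
  rw [integral_finsetSum _ fun k _ ↦ ((integrableOn_det μ hψ (v k)).mul_const (c k))]
  simp only [integral_mul_const, integral_det_small μ hψ h0 (hvL _).1 (hvL _).2]
  rw [← Finset.mul_sum, hc, mul_one]

/-- A Lipschitz map fixing everything outside a compact set covers it. -/
theorem measure_le_lintegral_det {C : ℝ≥0} {K : E → E} (hK : LipschitzWith C K) {D : Set E}
    (hD : IsCompact D) (hfix : ∀ y ∉ D, K y = y) :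
    μ D ≤ ∫⁻ y in D, ENNReal.ofReal |(fderiv ℝ K y).det| ∂μ := by
  set ψ : E → E := fun y ↦ K y - y
  have hψ : LipschitzWith (C + 1) ψ := hK.sub LipschitzWith.id
  obtain ⟨R, hR⟩ := hD.isBounded.subset_closedBall (0 : E)
  have h0 : ∀ y, R + 1 ≤ ‖y‖ → ψ y = 0 := fun y hy ↦ by
    have : y ∉ D := fun hc ↦ by linarith [mem_closedBall_zero_iff.mp (hR hc)]
    simp [ψ, hfix y this]
  set s := closedBall (0 : E) (R + 1)
  have hDs : D ⊆ s := hR.trans (closedBall_subset_closedBall (by linarith))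
  have h1 := integral_det_eq μ hψ h0
  have hint : IntegrableOn (fun y ↦ (1 + fderiv ℝ ψ y).det) s μ := by
    simpa using integrableOn_det μ hψ (R := R + 1) 1
  have hout : ∀ y ∈ s \ D, (1 + fderiv ℝ ψ y).det = 1 := fun y hy ↦ by
    have : ψ =ᶠ[𝓝 y] fun _ ↦ 0 := by
      filter_upwards [hD.isClosed.isOpen_compl.mem_nhds hy.2] with z hz
      simp [ψ, hfix z hz]
    simp [this.fderiv_eq, ContinuousLinearMap.det]
  have h2 : μ.real D = ∫ y in D, (1 + fderiv ℝ ψ y).det ∂μ := by
    have h3 := setIntegral_union (μ := μ) (f := fun y ↦ (1 + fderiv ℝ ψ y).det)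
      (disjoint_sdiff_right (s := D) (t := s)) (measurableSet_closedBall.diff hD.measurableSet)
      (hint.mono_set hDs) (hint.mono_set sdiff_subset)
    rw [union_sdiff_cancel hDs, h1,
      setIntegral_congr_fun (measurableSet_closedBall.diff hD.measurableSet) hout, setIntegral_const,
      smul_eq_mul, mul_one, measureReal_sdiff hDs hD.measurableSet measure_closedBall_lt_top.ne] at h3
    linarith
  have hae : ∀ᵐ y ∂μ.restrict D, ‖(1 + fderiv ℝ ψ y).det‖ₑ
      = ENNReal.ofReal |(fderiv ℝ K y).det| := by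
    refine ae_restrict_of_ae ?_
    filter_upwards [(hK.ae_differentiableAt : ∀ᵐ y ∂μ, DifferentiableAt ℝ K y)] with y hy
    have : fderiv ℝ ψ y = fderiv ℝ K y - ContinuousLinearMap.id ℝ E :=
      (hy.hasFDerivAt.sub (hasFDerivAt_id y)).fderiv
    rw [Real.enorm_eq_ofReal_abs, this, ContinuousLinearMap.one_def, add_sub_cancel]
  rw [← ofReal_measureReal hD.measure_lt_top.ne, h2]
  refine (ENNReal.ofReal_le_ofReal (le_abs_self _)).trans ?_
  rw [← Real.enorm_eq_ofReal_abs]
  exact (enorm_integral_le_lintegral_enorm _).trans_eq (lintegral_congr_ae hae)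

/-- An almost everywhere derivative bound gives the same bound along segments. -/
theorem sub_le_of_ae_fderiv_le {h : E → ℝ} {C : ℝ≥0} (hh : LipschitzWith C h) {Ω : Set E}
    (hΩ : IsOpen Ω) (hconv : Convex ℝ Ω) {a v : E} (ha : a ∈ closure Ω) (hav : a + v ∈ closure Ω)
    (hint : Ω.Nonempty) {c : ℝ} (hc : ∀ᵐ x ∂μ, x ∈ Ω → fderiv ℝ h x v ≤ c) :
    h (a + v) - h a ≤ c := by
  obtain ⟨N, hN, hNm, hN0⟩ := exists_measurable_superset_of_null
    (show μ {x | ¬((x ∈ Ω → fderiv ℝ h x v ≤ c) ∧ DifferentiableAt ℝ h x)} = 0 from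
      ae_iff.mp (hc.and hh.ae_differentiableAt))
  -- almost every base point sees the bound along almost all of its line
  have hline : ∀ᵐ p ∂μ, ∀ᵐ t : ℝ, p + t • v ∉ N := by
    have hm : MeasurableSet {q : E × ℝ | q.1 + q.2 • v ∈ N} :=
      (by fun_prop : Continuous fun q : E × ℝ ↦ q.1 + q.2 • v).measurable hNm
    have h1 : (μ.prod volume) {q : E × ℝ | q.1 + q.2 • v ∈ N} = 0 := by
      rw [Measure.prod_apply_symm hm]
      refine (lintegral_congr fun t ↦ ?_).trans lintegral_zero
      show μ ((fun p ↦ p + t • v) ⁻¹' N) = 0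
      rw [measure_preimage_add_right, hN0]
    have h2 := (Measure.measure_prod_null hm).mp h1
    filter_upwards [h2] with p hp
    exact measure_eq_zero_iff_ae_notMem.mp hp
  have good : ∀ p, ∀ r : ℝ, 0 ≤ r → p ∈ Ω → p + r • v ∈ Ω → (∀ᵐ t : ℝ, p + t • v ∉ N) →
      h (p + r • v) - h p ≤ r * c := by
    intro p r hr hp hpv hgood
    let g : ℝ → ℝ := fun t ↦ h (p + t • v)
    have hg : LipschitzWith (C * ‖v‖₊) g := by
      refine LipschitzWith.of_dist_le_mul fun s t ↦ ?_
      refine (hh.dist_le_mul _ _).trans_eq ?_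
      simp [dist_eq_norm, ← sub_smul, norm_smul]
      ring
    have hac := (hg.lipschitzOnWith (s := uIcc 0 r)).absolutelyContinuousOnInterval
    have hFTC := hac.integral_deriv_eq_sub
    simp only [g, zero_smul, add_zero] at hFTC
    rw [← hFTC]
    have hle : (∫ t in (0 : ℝ)..r, deriv g t) ≤ ∫ _t in (0 : ℝ)..r, c := by
      refine intervalIntegral.integral_mono_ae_restrict hr
        (hac.intervalIntegrable_deriv) intervalIntegrable_const ?_
      refine (ae_restrict_iff' measurableSet_Icc).mpr ?_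
      filter_upwards [hgood] with t ht htI
      obtain ⟨hb, hd⟩ : (p + t • v ∈ Ω → fderiv ℝ h (p + t • v) v ≤ c) ∧
          DifferentiableAt ℝ h (p + t • v) := by
        by_contra hcon
        exact ht (hN hcon)
      have hmem : p + t • v ∈ Ω := by
        rcases hr.eq_or_lt with hr0 | hr0
        · simpa [show t = 0 by linarith [htI.1, htI.2]] using hp
        · have := hconv.add_smul_mem hp hpv (t := t / r)
            ⟨div_nonneg htI.1 hr, (div_le_one hr0).mpr htI.2⟩
          simpa [smul_smul, div_mul_cancel₀ t hr0.ne'] using this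
      have hlin : HasDerivAt (fun r : ℝ ↦ p + r • v) v t := by
        simpa using ((hasDerivAt_id t).smul_const v).const_add p
      have hd2 : HasDerivAt g (fderiv ℝ h (p + t • v) v) t := hd.hasFDerivAt.comp_hasDerivAt t hlin
      rw [hd2.deriv]
      exact hb hmem
    simpa using hle
  have hcont := hh.continuous
  have interior_case : ∀ p, ∀ r : ℝ, 0 ≤ r → p ∈ Ω → p + r • v ∈ Ω →
      h (p + r • v) - h p ≤ r * c := by
    intro p r hr hp hpv
    let U : Set E := Ω ∩ (fun q ↦ q + r • v) ⁻¹' Ω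
    have hU : IsOpen U := hΩ.inter (hΩ.preimage (by fun_prop))
    have hsub : U ∩ {q | ∀ᵐ t : ℝ, q + t • v ∉ N} ⊆ {q | h (q + r • v) - h q ≤ r * c} :=
      fun q hq ↦ good q r hr hq.1.1 hq.1.2 hq.2
    have hclosed : IsClosed {q | h (q + r • v) - h q ≤ r * c} :=
      isClosed_le (by fun_prop) continuous_const
    exact closure_minimal hsub hclosed ((Measure.dense_of_ae hline).open_subset_closure_inter hU ⟨hp, hpv⟩)
  obtain ⟨o, ho⟩ := hint
  have hoi : o ∈ interior Ω := by rwa [hΩ.interior_eq]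
  have hev : ∀ᶠ θ : ℝ in 𝓝[>] 0,
      h (a + θ • (o - a) + (1 - θ) • v) - h (a + θ • (o - a)) ≤ (1 - θ) * c := by
    filter_upwards [Ioc_mem_nhdsGT zero_lt_one] with θ hθ
    refine interior_case _ _ (by linarith [hθ.2])
      (interior_subset (hconv.add_smul_sub_mem_interior' ha hoi hθ)) ?_
    have := interior_subset (hconv.add_smul_sub_mem_interior' hav hoi hθ)
    convert this using 1
    module
  have hl : Tendsto (fun θ : ℝ ↦ h (a + θ • (o - a) + (1 - θ) • v) - h (a + θ • (o - a)))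
      (𝓝[>] 0) (𝓝 (h (a + v) - h a)) :=
    ((by fun_prop : Continuous fun θ : ℝ ↦
      h (a + θ • (o - a) + (1 - θ) • v) - h (a + θ • (o - a))).tendsto' 0 _ (by simp)).mono_left
      nhdsWithin_le_nhds
  have hr : Tendsto (fun θ : ℝ ↦ (1 - θ) * c) (𝓝[>] 0) (𝓝 c) :=
    ((by fun_prop : Continuous fun θ : ℝ ↦ (1 - θ) * c).tendsto' 0 _ (by simp)).mono_left
      nhdsWithin_le_nhds
  exact le_of_tendsto_of_tendsto hl hr hev

end Vale.Agent.P084.Fin
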