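import Mathlib

/-!
A normalised Euclidean structure: the moment operators of the dual unit ball have determinant at
most one, the identity is one of them, and it is the only maximiser.
-/

open Set InnerProductSpace Module
open scoped RealInnerProductSpace

noncomputable section

namespace Vale.Agent.P084.Fin

/-- Convex hulls of compact sets in finite dimensions are compact. -/
lemma isCompact_hull {V : Type*} [NormedAddCommGroup V] [NormedSpace ℝ V] [FiniteDimensional ℝ V]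
    {s : Set V} (hs : IsCompact s) : IsCompact (convexHull ℝ s) := by
  rcases s.eq_empty_or_nonempty with rfl | ⟨z₀, hz₀⟩
  · simp
  classical
  let d := finrank ℝ V + 1
  let Φ : (Fin d → ℝ) × (Fin d → V) → V := fun p ↦ ∑ i, p.1 i • p.2 i
  have himg : convexHull ℝ s = Φ '' (stdSimplex ℝ (Fin d) ×ˢ univ.pi fun _ ↦ s) := by
    refine Subset.antisymm (fun x hx ↦ ?_) ?_
    · obtain ⟨ι, _, z, w, hz, hind, hw, hw1, hx⟩ := eq_pos_convex_span_of_mem_convexHull hx
      have hcard : Fintype.card ι ≤ Fintype.card (Fin d) := by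
        rw [Fintype.card_fin]
        refine hind.card_le_finrank_succ.trans ?_
        simp only [d, Nat.add_le_add_iff_right]
        exact Submodule.finrank_le _
      obtain ⟨emb⟩ := Function.Embedding.nonempty_of_card_le hcard
      have hout : ∀ j, j ∉ (Finset.univ.map emb) → Function.extend emb w (fun _ ↦ (0 : ℝ)) j = 0 :=
        fun j hj ↦ by
          rw [Function.extend_apply']
          rintro ⟨i, rfl⟩
          exact hj (by simp)
      refine ⟨(Function.extend emb w fun _ ↦ 0, Function.extend emb z fun _ ↦ z₀),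
        ⟨⟨fun j ↦ ?_, ?_⟩, fun j _ ↦ ?_⟩, ?_⟩
      · dsimp only
        by_cases h : ∃ i, emb i = j
        · obtain ⟨i, rfl⟩ := h
          rw [emb.injective.extend_apply]; exact (hw i).le
        · rw [Function.extend_apply' _ _ _ h]
      · rw [← Finset.sum_subset (Finset.subset_univ (Finset.univ.map emb)) (fun j _ hj ↦ hout j hj),
          Finset.sum_map]
        simpa [emb.injective.extend_apply] using hw1
      · dsimp only
        by_cases h : ∃ i, emb i = j
        · obtain ⟨i, rfl⟩ := h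
          rw [emb.injective.extend_apply]; exact hz (mem_range_self i)
        · rw [Function.extend_apply' _ _ _ h]; exact hz₀
      · simp only [Φ]
        rw [← Finset.sum_subset (Finset.subset_univ (Finset.univ.map emb))
          (fun j _ hj ↦ by rw [hout j hj, zero_smul]),
          Finset.sum_map]
        simpa [emb.injective.extend_apply] using hx
    · rintro _ ⟨⟨w, z⟩, ⟨⟨hw, hw1⟩, hz⟩, rfl⟩
      exact (convex_convexHull ℝ s).sum_mem (fun i _ ↦ hw i) hw1
        fun i _ ↦ subset_convexHull ℝ s (hz i (mem_univ i))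
  rw [himg]
  exact ((isCompact_stdSimplex ℝ _).prod (isCompact_univ_pi fun _ ↦ hs)).image (by fun_prop)

variable {E : Type*} [NormedAddCommGroup E] [InnerProductSpace ℝ E] [FiniteDimensional ℝ E]

lemma det_affine {T : E →ₗ[ℝ] E} (hT : T.IsSymmetric) (α β : ℝ) :
    LinearMap.det (α • LinearMap.id + β • T)
      = ∏ i, (α + β * hT.eigenvalues rfl i) := by
  classical
  rw [← LinearMap.det_toMatrix (hT.eigenvectorBasis rfl).toBasis]
  have : LinearMap.toMatrix (hT.eigenvectorBasis rfl).toBasis (hT.eigenvectorBasis rfl).toBasis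
      (α • LinearMap.id + β • T) = Matrix.diagonal fun i ↦ α + β * hT.eigenvalues rfl i := by
    ext i j
    rw [LinearMap.toMatrix_apply]
    simp only [OrthonormalBasis.coe_toBasis, LinearMap.add_apply, LinearMap.smul_apply,
      LinearMap.id_coe, id_eq, hT.apply_eigenvectorBasis, RCLike.ofReal_real_eq_id, smul_smul,
      ← add_smul, map_smul, OrthonormalBasis.coe_toBasis_repr_apply, OrthonormalBasis.repr_self]
    rcases eq_or_ne i j with rfl | hij
    · simp
    · simp [hij]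
  rw [this, Matrix.det_diagonal]

lemma det_eq {T : E →ₗ[ℝ] E} (hT : T.IsSymmetric) :
    LinearMap.det T = ∏ i, hT.eigenvalues rfl i := by simpa using det_affine hT 0 1

lemma eq_one_of_eigenvalues {T : E →ₗ[ℝ] E} (hT : T.IsSymmetric)
    (h : ∀ i, hT.eigenvalues rfl i = 1) : T = LinearMap.id := by
  refine (hT.eigenvectorBasis rfl).toBasis.ext fun i ↦ ?_
  simp [hT.apply_eigenvectorBasis, h]

lemma rayleigh {T : E →ₗ[ℝ] E} (hT : T.IsSymmetric) (i : Fin (finrank ℝ E)) :
    ⟪T (hT.eigenvectorBasis rfl i), hT.eigenvectorBasis rfl i⟫ = hT.eigenvalues rfl i := by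
  simp [hT.apply_eigenvectorBasis, inner_smul_left]

/-- `T ≥ 1` and `det T ≤ 1` force `T = 1`; in any case `det T ≥ 1`. -/
lemma det_ge_one {T : E →ₗ[ℝ] E} (hT : T.IsSymmetric) (h : ∀ v, ‖v‖ ^ 2 ≤ ⟪T v, v⟫) :
    1 ≤ LinearMap.det T ∧ (LinearMap.det T ≤ 1 → T = LinearMap.id) := by
  have hl : ∀ i, 1 ≤ hT.eigenvalues rfl i := fun i ↦ by
    rw [← rayleigh hT i]
    simpa using h (hT.eigenvectorBasis rfl i)
  rw [det_eq hT]
  refine ⟨Finset.one_le_prod fun i _ ↦ hl i, fun hle ↦ eq_one_of_eigenvalues hT fun i ↦ ?_⟩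
  refine le_antisymm ?_ (hl i)
  rw [← Finset.mul_prod_erase _ _ (Finset.mem_univ i)] at hle
  exact le_trans (le_mul_of_one_le_right (zero_le_one.trans (hl i))
    (Finset.one_le_prod fun j _ ↦ hl j)) hle

/-- Strict log-concavity at the identity. -/
lemma eq_one_of_midpoint {T : E →ₗ[ℝ] E} (hT : T.IsSymmetric) (h0 : ∀ v, 0 ≤ ⟪T v, v⟫)
    (h1 : 1 ≤ LinearMap.det T)
    (hm : LinearMap.det ((1 / 2 : ℝ) • LinearMap.id + (1 / 2 : ℝ) • T) ≤ 1) :
    T = LinearMap.id := by
  have hl : ∀ i, 0 ≤ hT.eigenvalues rfl i := fun i ↦ rayleigh hT i ▸ h0 _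
  rw [det_eq hT] at h1
  rw [det_affine hT] at hm
  refine eq_one_of_eigenvalues hT fun i ↦ ?_
  set l := hT.eigenvalues rfl
  have key : ∀ j, l j ≤ ((1 / 2 : ℝ) + 1 / 2 * l j) ^ 2 := fun j ↦ by
    nlinarith [sq_nonneg (1 - l j)]
  have hsq : (∏ j, ((1 / 2 : ℝ) + 1 / 2 * l j) ^ 2) ≤ 1 := by
    rw [Finset.prod_pow]
    exact pow_le_one₀ (Finset.prod_nonneg fun j _ ↦ by linarith [hl j]) hm
  rw [← Finset.mul_prod_erase _ _ (Finset.mem_univ i)] at hsq h1
  have hrest : ∏ j ∈ Finset.univ.erase i, l j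
      ≤ ∏ j ∈ Finset.univ.erase i, ((1 / 2 : ℝ) + 1 / 2 * l j) ^ 2 :=
    Finset.prod_le_prod (fun j _ ↦ hl j) fun j _ ↦ key j
  have hrest0 : 0 < ∏ j ∈ Finset.univ.erase i, l j := by
    refine (Finset.prod_nonneg fun j _ ↦ hl j).lt_of_ne fun hc ↦ ?_
    rw [← hc, mul_zero] at h1
    linarith
  have : ((1 / 2 : ℝ) + 1 / 2 * l i) ^ 2 ≤ l i := by
    refine le_of_mul_le_mul_right ?_ hrest0
    calc ((1 / 2 : ℝ) + 1 / 2 * l i) ^ 2 * ∏ j ∈ Finset.univ.erase i, l j
        ≤ ((1 / 2 : ℝ) + 1 / 2 * l i) ^ 2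
          * ∏ j ∈ Finset.univ.erase i, ((1 / 2 : ℝ) + 1 / 2 * l j) ^ 2 :=
          mul_le_mul_of_nonneg_left hrest (sq_nonneg _)
      _ ≤ 1 := hsq
      _ ≤ _ := h1
  nlinarith [sq_nonneg (1 - l i)]

lemma det_adjoint (T : E →ₗ[ℝ] E) : LinearMap.det (LinearMap.adjoint T) = LinearMap.det T := by
  classical
  let b := stdOrthonormalBasis ℝ E
  rw [← LinearMap.det_toMatrix b.toBasis, LinearMap.toMatrix_adjoint b b,
    Matrix.conjTranspose_eq_transpose_of_trivial, Matrix.det_transpose, LinearMap.det_toMatrix]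

/-- The rank-one form of a vector. -/
def op (g : E) : E →L[ℝ] E := ContinuousLinearMap.smulRightL ℝ E E (innerSL ℝ g) g

@[simp] lemma op_apply (g v : E) : op g v = ⟪g, v⟫ • g := rfl

/-- The moment operators of a set of vectors. -/
def moments (Γ : Set E) : Set (E →L[ℝ] E) := convexHull ℝ (op '' Γ)

lemma moments_symm {Γ : Set E} {N : E →L[ℝ] E} (hN : N ∈ moments Γ) :
    (N : E →ₗ[ℝ] E).IsSymmetric ∧ ∀ v, 0 ≤ ⟪N v, v⟫ := by
  have hconv : Convex ℝ {N : E →L[ℝ] E | (N : E →ₗ[ℝ] E).IsSymmetric ∧ ∀ v, 0 ≤ ⟪N v, v⟫} := by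
    intro A hA B hB a b ha hb _
    refine ⟨fun u v ↦ ?_, fun v ↦ ?_⟩
    · have e1 : ⟪A u, v⟫ = ⟪u, A v⟫ := hA.1 u v
      have e2 : ⟪B u, v⟫ = ⟪u, B v⟫ := hB.1 u v
      simp [inner_add_left, inner_add_right, inner_smul_left, inner_smul_right, e1, e2]
    · have h1 := hA.2 v
      have h2 := hB.2 v
      simp [inner_add_left, inner_smul_left]
      positivity
  refine convexHull_min ?_ hconv hN
  rintro _ ⟨g, _, rfl⟩
  refine ⟨fun u v ↦ ?_, fun v ↦ ?_⟩
  · simp [inner_smul_left, inner_smul_right, real_inner_comm g u]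
    ring
  · simp [inner_smul_left]
    nlinarith [mul_self_nonneg ⟪g, v⟫]

/-- The identity is a moment operator, of maximal determinant. -/
def Isotropic (Γ : Set E) : Prop :=
  (1 : E →L[ℝ] E) ∈ moments Γ ∧ ∀ N ∈ moments Γ, LinearMap.det (N : E →ₗ[ℝ] E) ≤ 1

/-- A linear map dominated by a moment operator has determinant at most one, with equality only
for isometries. -/
lemma Isotropic.abs_det_le {Γ : Set E} (hΓ : Isotropic Γ) {N : E →L[ℝ] E} (hN : N ∈ moments Γ)
    {U : E →L[ℝ] E} (hU : ∀ v, ‖U v‖ ^ 2 ≤ ⟪N v, v⟫) :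
    |LinearMap.det (U : E →ₗ[ℝ] E)| ≤ 1 ∧
      (|LinearMap.det (U : E →ₗ[ℝ] E)| = 1 → ∀ v, ‖U v‖ = ‖v‖) := by
  by_cases h0 : LinearMap.det (U : E →ₗ[ℝ] E) = 0
  · simp [h0]
  obtain ⟨hNs, hN0⟩ := moments_symm hN
  let Ul : E →ₗ[ℝ] E := U
  let Nl : E →ₗ[ℝ] E := N
  let V : E ≃ₗ[ℝ] E := LinearMap.equivOfDetNeZero Ul h0
  let W : E →ₗ[ℝ] E := V.symm.toLinearMap
  let C : E →ₗ[ℝ] E := LinearMap.adjoint W ∘ₗ Nl ∘ₗ W
  have hCs : C.IsSymmetric := fun u v ↦ by
    simp only [C, LinearMap.comp_apply, LinearMap.adjoint_inner_left, LinearMap.adjoint_inner_right]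
    exact hNs _ _
  have hVW : ∀ v, U (W v) = v := fun v ↦ V.apply_symm_apply v
  have hC1 : ∀ v, ‖v‖ ^ 2 ≤ ⟪C v, v⟫ := fun v ↦ by
    simp only [C, LinearMap.comp_apply, LinearMap.adjoint_inner_left]
    simpa [hVW, Nl] using hU (W v)
  obtain ⟨hge, heq⟩ := det_ge_one hCs hC1
  have hW : LinearMap.det W * LinearMap.det Ul = 1 := by
    rw [← LinearMap.det_comp, show W ∘ₗ Ul = LinearMap.id from LinearMap.ext V.symm_apply_apply,
      LinearMap.det_id]
  have hdet : LinearMap.det C = LinearMap.det W ^ 2 * LinearMap.det Nl := by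
    simp only [C, LinearMap.det_comp, det_adjoint]; ring
  have hNle : LinearMap.det Nl ≤ 1 := hΓ.2 N hN
  have hUC : LinearMap.det Ul ^ 2 * LinearMap.det C = LinearMap.det Nl := by
    rw [hdet, ← mul_assoc, ← mul_pow, mul_comm (LinearMap.det Ul), hW]; ring
  have hle : LinearMap.det Ul ^ 2 ≤ 1 :=
    le_trans (le_mul_of_one_le_right (sq_nonneg _) hge) (hUC ▸ hNle)
  refine ⟨(sq_le_one_iff_abs_le_one _).mp hle, fun h1 v ↦ ?_⟩
  have hU2 : LinearMap.det Ul ^ 2 = 1 := by rw [← sq_abs, h1, one_pow]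
  rw [hU2, one_mul] at hUC
  have hN1 : Nl = LinearMap.id := by
    refine eq_one_of_midpoint hNs hN0 (hUC ▸ hge) ?_
    have hmid := hΓ.2 _ ((convex_convexHull ℝ _) hΓ.1 hN (by norm_num : (0 : ℝ) ≤ 1 / 2)
      (by norm_num : (0 : ℝ) ≤ 1 / 2) (by norm_num))
    simpa [Nl, Module.End.one_eq_id] using hmid
  have hCid := heq (by rw [hUC]; exact hNle)
  have h2 := congrArg (fun T : E →ₗ[ℝ] E ↦ ⟪T (U v), U v⟫) hCid
  simp only [C, LinearMap.comp_apply, LinearMap.adjoint_inner_left, LinearMap.id_coe, id_eq] at h2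
  rw [show W (U v) = v from V.symm_apply_apply v] at h2
  rw [hN1, LinearMap.id_apply, real_inner_self_eq_norm_sq, real_inner_self_eq_norm_sq] at h2
  exact ((sq_eq_sq₀ (norm_nonneg _) (norm_nonneg _)).mp h2).symm

variable {X : Type*} [NormedAddCommGroup X] [NormedSpace ℝ X]

/-- The dual unit ball in the coordinates `c`. -/
def dualBall (c : X ≃L[ℝ] E) : Set E := {g | ∀ v, |⟪g, c v⟫| ≤ ‖v‖}

lemma isCompact_dualBall (c : X ≃L[ℝ] E) : IsCompact (dualBall c) := by
  refine Metric.isCompact_of_isClosed_isBounded ?_ ?_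
  · simp only [dualBall, ofPred_forall]
    exact isClosed_iInter fun v ↦ isClosed_le (by fun_prop) continuous_const
  · refine (Metric.isBounded_closedBall (x := (0 : E))
      (r := ‖(c.symm : E →L[ℝ] X)‖)).subset fun g hg ↦ ?_
    rw [mem_closedBall_zero_iff]
    have h1 := hg (c.symm g)
    rw [c.apply_symm_apply, real_inner_self_eq_norm_sq, abs_of_nonneg (sq_nonneg _)] at h1
    have h2 := (c.symm : E →L[ℝ] X).le_opNorm g
    rcases (norm_nonneg g).eq_or_lt with h | h
    · rw [← h]; positivity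
    · exact le_of_mul_le_mul_right (by rw [← sq]; exact h1.trans h2) h

/-- Coordinates making the dual unit ball isotropic. -/
lemma exists_isotropic (c₀ : X ≃L[ℝ] E) : ∃ c : X ≃L[ℝ] E, Isotropic (dualBall c) := by
  classical
  set Γ := dualBall c₀
  have hcomp : IsCompact (moments Γ) :=
    isCompact_hull ((isCompact_dualBall c₀).image (show Continuous (op : E → _) by
      unfold op; fun_prop))
  -- a positive element
  obtain ⟨P, hP, hPdet⟩ : ∃ P ∈ moments Γ, 0 < LinearMap.det (P : E →ₗ[ℝ] E) := by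
    rcases Nat.eq_zero_or_pos (finrank ℝ E) with hn | hn
    · refine ⟨op 0, subset_convexHull ℝ _ ⟨0, fun v ↦ by simp, rfl⟩, ?_⟩
      have : Subsingleton E := finrank_zero_iff.mp hn
      rw [show ((op 0 : E →L[ℝ] E) : E →ₗ[ℝ] E) = LinearMap.id from LinearMap.ext fun v ↦
        Subsingleton.elim _ _, LinearMap.det_id]
      exact one_pos
    · let b := stdOrthonormalBasis ℝ E
      set ε := (‖(c₀ : X →L[ℝ] E)‖ + 1)⁻¹ with hε
      have hεpos : 0 < ε := by positivity
      refine ⟨∑ i, (1 / (finrank ℝ E : ℝ)) • op (ε • b i),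
        (convex_convexHull ℝ _).sum_mem (fun i _ ↦ by positivity) (by simp; field_simp)
          (fun i _ ↦ subset_convexHull ℝ _ ⟨_, fun v ↦ ?_, rfl⟩), ?_⟩
      · rw [inner_smul_left, conj_trivial, abs_mul, abs_of_pos hεpos]
        have h1 := abs_real_inner_le_norm (b i) (c₀ v)
        rw [b.norm_eq_one, one_mul] at h1
        have h2 := (c₀ : X →L[ℝ] E).le_opNorm v
        have h3 : ε * (‖(c₀ : X →L[ℝ] E)‖ + 1) = 1 := inv_mul_cancel₀ (by positivity)
        calc ε * |⟪b i, c₀ v⟫| ≤ ε * ((‖(c₀ : X →L[ℝ] E)‖ + 1) * ‖v‖) := by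
              refine mul_le_mul_of_nonneg_left (h1.trans (h2.trans ?_)) hεpos.le
              nlinarith [norm_nonneg v]
          _ = ‖v‖ := by rw [← mul_assoc, h3, one_mul]
      · have : ((∑ i, (1 / (finrank ℝ E : ℝ)) • op (ε • b i) : E →L[ℝ] E) : E →ₗ[ℝ] E)
            = (ε * ε / finrank ℝ E) • LinearMap.id := by
          refine LinearMap.ext fun v ↦ ?_
          simp only [ContinuousLinearMap.coe_coe, ContinuousLinearMap.sum_apply,
            ContinuousLinearMap.smul_apply, op_apply, inner_smul_left, conj_trivial,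
            LinearMap.smul_apply, LinearMap.id_coe, id_eq, smul_smul]
          conv_rhs => rw [← b.sum_repr' v, Finset.smul_sum]
          refine Finset.sum_congr rfl fun i _ ↦ ?_
          rw [smul_smul]
          congr 1
          ring
        rw [this, LinearMap.det_smul, LinearMap.det_id]
        positivity
  obtain ⟨M, hM, hmax⟩ := hcomp.exists_isMaxOn ⟨P, hP⟩
    (ContinuousLinearMap.continuous_det.continuousOn)
  have hMdet : 0 < LinearMap.det (M : E →ₗ[ℝ] E) := hPdet.trans_le (hmax hP)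
  obtain ⟨hMs, hM0⟩ := moments_symm hM
  set l := hMs.eigenvalues rfl
  set b := hMs.eigenvectorBasis rfl
  have hlnn : ∀ i, 0 ≤ l i := fun i ↦ (hM0 _).trans_eq (rayleigh hMs i)
  have hl : ∀ i, 0 < l i := fun i ↦ (hlnn i).lt_of_ne fun hc ↦ by
    rw [det_eq hMs, Finset.prod_eq_zero (Finset.mem_univ i) hc.symm] at hMdet
    exact lt_irrefl _ hMdet
  -- the square root
  let Bl : E →ₗ[ℝ] E := ∑ i, Real.sqrt (l i) • (op (b i) : E →ₗ[ℝ] E)
  have hBl : ∀ v, Bl v = ∑ i, (Real.sqrt (l i) * ⟪b i, v⟫) • b i := fun v ↦ by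
    simp [Bl, smul_smul, LinearMap.sum_apply]
  have hBBl : Bl ∘ₗ Bl = (M : E →ₗ[ℝ] E) := LinearMap.ext fun v ↦ by
    have hbB : ∀ i, ⟪b i, Bl v⟫ = Real.sqrt (l i) * ⟪b i, v⟫ := fun i ↦ by
      simp [hBl, inner_sum, inner_smul_right, orthonormal_iff_ite.mp b.orthonormal]
    conv_rhs => rw [← b.sum_repr' v, map_sum]
    rw [LinearMap.comp_apply, hBl]
    refine Finset.sum_congr rfl fun i _ ↦ ?_
    rw [hbB, map_smul]
    rw [show (M : E →ₗ[ℝ] E) (b i) = l i • b i by simpa [b, l] using hMs.apply_eigenvectorBasis rfl i]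
    rw [← mul_assoc, Real.mul_self_sqrt (hlnn i), smul_smul, mul_comm]
  have hBdet : LinearMap.det Bl ≠ 0 := fun hc ↦ by
    rw [← hBBl, LinearMap.det_comp, hc, mul_zero] at hMdet
    exact lt_irrefl _ hMdet
  let B : E ≃L[ℝ] E := (LinearMap.equivOfDetNeZero Bl hBdet).toContinuousLinearEquiv
  have hB : ∀ v, B v = ∑ i, (Real.sqrt (l i) * ⟪b i, v⟫) • b i := hBl
  have hBs : ∀ u v, ⟪B u, v⟫ = ⟪u, B v⟫ := fun u v ↦ by
    simp only [hB, sum_inner, inner_sum, inner_smul_left, inner_smul_right, conj_trivial]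
    refine Finset.sum_congr rfl fun i _ ↦ ?_
    rw [real_inner_comm u]
    ring
  have hBB : ∀ v, B (B v) = M v := fun v ↦ LinearMap.congr_fun hBBl v
  have hBinv : ∀ u v, ⟪B.symm u, v⟫ = ⟪u, B.symm v⟫ := fun u v ↦ by
    conv_lhs => rw [← B.apply_symm_apply v]
    rw [← hBs, B.apply_symm_apply]
  have hmem : ∀ g, g ∈ dualBall (c₀.trans B) ↔ B g ∈ Γ := fun g ↦ by
    simp [dualBall, Γ, hBs]
  refine ⟨c₀.trans B, ?_, fun N hN ↦ ?_⟩
  · -- conjugation sends `M` to the identity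
    let conj : (E →L[ℝ] E) →ₗ[ℝ] (E →L[ℝ] E) :=
      { toFun := fun T ↦ (B.symm : E →L[ℝ] E).comp (T.comp (B.symm : E →L[ℝ] E))
        map_add' := fun S T ↦ by ext; simp
        map_smul' := fun t T ↦ by ext; simp }
    have h1 : conj M = 1 := by
      ext v
      show B.symm (M (B.symm v)) = v
      rw [← hBB, B.symm_apply_apply, B.apply_symm_apply]
    rw [← h1]
    have h2 : conj M ∈ conj '' moments Γ := mem_image_of_mem _ hM
    rw [moments, LinearMap.image_convexHull] at h2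
    refine convexHull_mono ?_ h2
    rintro _ ⟨_, ⟨g, hg, rfl⟩, rfl⟩
    refine ⟨B.symm g, (hmem _).mpr (by rw [B.apply_symm_apply]; exact hg), ?_⟩
    ext v
    show op (B.symm g) v = B.symm (op g (B.symm v))
    simp [hBinv]
  · let conj : (E →L[ℝ] E) →ₗ[ℝ] (E →L[ℝ] E) :=
      { toFun := fun T ↦ (B : E →L[ℝ] E).comp (T.comp (B : E →L[ℝ] E))
        map_add' := fun S T ↦ by ext; simp
        map_smul' := fun t T ↦ by ext; simp }
    have h2 : conj N ∈ conj '' moments (dualBall (c₀.trans B)) := mem_image_of_mem _ hN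
    rw [moments, LinearMap.image_convexHull] at h2
    have h3 : conj N ∈ moments Γ := by
      refine convexHull_mono ?_ h2
      rintro _ ⟨_, ⟨g, hg, rfl⟩, rfl⟩
      refine ⟨B g, (hmem g).mp hg, ?_⟩
      ext v
      show op (B g) v = B (op g (B v))
      simp [hBs]
    have h4 := hmax h3
    simp only [mem_ofPred_eq] at h4
    have eN : ((conj N : E →L[ℝ] E) : E →ₗ[ℝ] E)
        = (B : E →ₗ[ℝ] E) ∘ₗ (N : E →ₗ[ℝ] E) ∘ₗ (B : E →ₗ[ℝ] E) := rfl
    have eM : (M : E →ₗ[ℝ] E) = (B : E →ₗ[ℝ] E) ∘ₗ (B : E →ₗ[ℝ] E) :=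
      LinearMap.ext fun v ↦ (hBB v).symm
    simp only [ContinuousLinearMap.det, eN, eM, LinearMap.det_comp] at h4
    rw [eM, LinearMap.det_comp] at hMdet
    nlinarith

end Vale.Agent.P084.Fin
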