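import Vale.Agent.P084.Ext
import Vale.Agent.P084.Fin.John
import Vale.Agent.P084.Fin.NullLag

/-!
A surjective sphere isometry between finite-dimensional spaces preserves the distances of the
isotropic Euclidean structures, hence is linear.
-/

open Set MeasureTheory Measure Module Metric Filter InnerProductSpace
open scoped NNReal ENNReal Topology RealInnerProductSpace

noncomputable section

namespace Vale.Agent.P084.Fin

variable {X Y : Type*} [NormedAddCommGroup X] [NormedSpace ℝ X] [NormedAddCommGroup Y]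
  [NormedSpace ℝ Y]

/-- The radial retraction onto the closed unit ball. -/
def retract (y : Y) : Y := (max 1 ‖y‖)⁻¹ • y

lemma retract_lipschitz : LipschitzWith 2 (retract : Y → Y) := by
  refine LipschitzWith.of_dist_le_mul fun x y ↦ ?_
  rw [dist_eq_norm, dist_eq_norm, NNReal.coe_ofNat]
  set a := max 1 ‖x‖
  set b := max 1 ‖y‖
  have ha : 1 ≤ a := le_max_left _ _
  have hb : 1 ≤ b := le_max_left _ _
  have hab : |b - a| ≤ ‖x - y‖ := by
    refine (abs_max_sub_max_le_max _ _ _ _).trans ?_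
    simp only [sub_self, abs_zero]
    exact max_le (norm_nonneg _) ((abs_norm_sub_norm_le y x).trans_eq (norm_sub_rev y x))
  have e : retract x - retract y = a⁻¹ • (x - y) + ((b - a) / (a * b)) • y := by
    show a⁻¹ • x - b⁻¹ • y = _
    rw [show (b - a) / (a * b) = a⁻¹ - b⁻¹ by field_simp]
    module
  rw [e]
  refine (norm_add_le _ _).trans ?_
  rw [norm_smul, norm_smul, norm_inv, Real.norm_eq_abs, Real.norm_eq_abs, abs_div,
    abs_of_pos (by linarith : (0 : ℝ) < a), abs_of_pos (by positivity : (0 : ℝ) < a * b)]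
  have h1 : a⁻¹ * ‖x - y‖ ≤ ‖x - y‖ :=
    mul_le_of_le_one_left (norm_nonneg _) (inv_le_one_of_one_le₀ ha)
  have h2 : |b - a| / (a * b) * ‖y‖ ≤ |b - a| := by
    rw [div_mul_eq_mul_div, div_le_iff₀ (by positivity)]
    refine mul_le_mul_of_nonneg_left ?_ (abs_nonneg _)
    nlinarith [le_max_right (1 : ℝ) ‖y‖]
  linarith

lemma retract_of_mem {y : Y} (hy : ‖y‖ ≤ 1) : retract y = y := by
  simp [retract, max_eq_left hy]

lemma norm_retract_of_lt {y : Y} (hy : 1 < ‖y‖) : ‖retract y‖ = 1 := by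
  have hy0 : y ≠ 0 := fun hc ↦ by simp [hc] at hy; linarith
  simp [retract, max_eq_right hy.le, norm_smul, hy0]

variable {E : Type*} [NormedAddCommGroup E] [InnerProductSpace ℝ E] [FiniteDimensional ℝ E]
  [MeasurableSpace E] [BorelSpace E] (μ : Measure E) [IsAddHaarMeasure μ]
  [FiniteDimensional ℝ X]
variable {F : X → Y} {G : Y → X}

/-- The map built from `1`-Lipschitz extensions of the boundary functionals. -/
lemma exists_extension (e : SphereExt F G) {cX : X ≃L[ℝ] E} {cY : Y ≃L[ℝ] E}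
    (hY : Isotropic (dualBall cY)) :
    ∃ (C : ℝ≥0) (P : E → E), LipschitzWith C P ∧ (∀ u, ‖u‖ = 1 → P (cX u) = cY (F u)) ∧
      ∀ᵐ x ∂μ, ∃ N ∈ moments (dualBall cX), ∀ v, ‖fderiv ℝ P x v‖ ^ 2 ≤ ⟪N v, v⟫ := by
  classical
  obtain ⟨ι, _, w, z, hw, hw1, hz, hsum⟩ := mem_convexHull_iff_exists_fintype.mp hY.1
  choose g hg hgz using hz
  have hid : ∀ y : E, ∑ i, (w i * ⟪g i, y⟫) • g i = y := fun y ↦ by
    have := congrArg (fun T : E →L[ℝ] E ↦ T y) hsum
    simpa [← hgz, smul_smul] using this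
  have hq : ∀ i, ∃ q : X → ℝ, LipschitzWith 1 q ∧
      EqOn (fun u ↦ ⟪g i, cY (F u)⟫) q (sphere 0 1) := fun i ↦ by
    refine LipschitzOnWith.extend_real (LipschitzOnWith.of_dist_le_mul fun u hu v hv ↦ ?_)
    rw [NNReal.coe_one, one_mul, Real.dist_eq, dist_eq_norm, ← inner_sub_right, ← map_sub]
    refine (hg i _).trans_eq ?_
    have := e.hcone u v
    rw [mem_sphere_zero_iff_norm.mp hu, mem_sphere_zero_iff_norm.mp hv] at this
    simpa using this
  choose q hq1 hq2 using hq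
  have hr : ∀ i, LipschitzWith (1 * ‖(cX.symm : E →L[ℝ] X)‖₊) (q i ∘ cX.symm) := fun i ↦
    (hq1 i).comp (cX.symm : E →L[ℝ] X).lipschitz
  set P : E → E := fun x ↦ ∑ i, (w i * q i (cX.symm x)) • g i
  have hP : LipschitzWith (∑ i, Real.toNNReal (|w i| * ‖(cX.symm : E →L[ℝ] X)‖ * ‖g i‖)) P := by
    refine LipschitzWith.of_dist_le_mul fun x y ↦ ?_
    simp only [P, dist_eq_norm, ← Finset.sum_sub_distrib, ← sub_smul, ← mul_sub]
    refine (norm_sum_le _ _).trans ?_
    rw [NNReal.coe_sum, Finset.sum_mul]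
    refine Finset.sum_le_sum fun i _ ↦ ?_
    rw [norm_smul, norm_mul, Real.norm_eq_abs, Real.coe_toNNReal _ (by positivity)]
    have := (hr i).norm_sub_le x y
    simp only [Function.comp_apply, one_mul, coe_nnnorm] at this
    calc |w i| * ‖q i (cX.symm x) - q i (cX.symm y)‖ * ‖g i‖
        ≤ |w i| * (‖(cX.symm : E →L[ℝ] X)‖ * ‖x - y‖) * ‖g i‖ := by gcongr
      _ = |w i| * ‖(cX.symm : E →L[ℝ] X)‖ * ‖g i‖ * ‖x - y‖ := by ring
  refine ⟨_, P, hP, fun u hu ↦ ?_, ?_⟩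
  · have : ∀ i, q i u = ⟪g i, cY (F u)⟫ := fun i ↦
      (hq2 i (mem_sphere_zero_iff_norm.mpr hu)).symm
    simp [P, this, hid]
  · have hdiff : ∀ᵐ x ∂μ, ∀ i, DifferentiableAt ℝ (q i ∘ cX.symm) x :=
      ae_all_iff.mpr fun i ↦ (hr i).ae_differentiableAt
    filter_upwards [hdiff] with x hx
    set k : ι → E := fun i ↦
      (InnerProductSpace.toDual ℝ E).symm (fderiv ℝ (q i ∘ cX.symm) x)
    have hk : ∀ i v, ⟪k i, v⟫ = fderiv ℝ (q i ∘ cX.symm) x v := fun i v ↦
      InnerProductSpace.toDual_symm_apply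
    have hkmem : ∀ i, k i ∈ dualBall cX := fun i v ↦ by
      have hqd : DifferentiableAt ℝ (q i) (cX.symm x) := by
        have h := (show DifferentiableAt ℝ (q i ∘ cX.symm) (cX (cX.symm x)) by
          rw [cX.apply_symm_apply]; exact hx i).comp (cX.symm x) cX.differentiableAt
        simpa [Function.comp_def] using h
      rw [hk, fderiv_comp x hqd cX.symm.differentiableAt, cX.symm.fderiv]
      simp only [ContinuousLinearMap.comp_apply, ContinuousLinearEquiv.coe_coe,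
        cX.symm_apply_apply]
      have := (fderiv ℝ (q i) (cX.symm x)).le_of_opNorm_le
        (norm_fderiv_le_of_lipschitz ℝ (hq1 i)) v
      simpa using this
    refine ⟨∑ i, w i • op (k i), (convex_convexHull ℝ _).sum_mem (fun i _ ↦ hw i) hw1
      (fun i _ ↦ subset_convexHull ℝ _ ⟨_, hkmem i, rfl⟩), fun v ↦ ?_⟩
    have hDP : fderiv ℝ P x v = ∑ i, (w i * ⟪k i, v⟫) • g i := by
      have h := HasFDerivAt.fun_sum (u := Finset.univ) fun i _ ↦
        (((hx i).hasFDerivAt.const_mul (w i)).smul_const (g i))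
      rw [show P = fun x ↦ ∑ i ∈ Finset.univ, (w i * (q i ∘ cX.symm) x) • g i from rfl, h.fderiv]
      simp [hk]
    set d := fderiv ℝ P x v
    have h1 : ‖d‖ ^ 2 = ∑ i, w i * (⟪k i, v⟫ * ⟪g i, d⟫) := by
      rw [← real_inner_self_eq_norm_sq]
      nth_rewrite 1 [hDP]
      simp [sum_inner, inner_smul_left, mul_assoc]
    have h2 : ‖d‖ ^ 2 = ∑ i, w i * (⟪g i, d⟫ * ⟪g i, d⟫) := by
      rw [← real_inner_self_eq_norm_sq]
      nth_rewrite 1 [← hid d]
      simp [sum_inner, inner_smul_left, mul_assoc]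
    have h3 : ⟪(∑ i, w i • op (k i)) v, v⟫ = ∑ i, w i * (⟪k i, v⟫ * ⟪k i, v⟫) := by
      simp [sum_inner, inner_smul_left]
    have h4 : ∑ i, (2 * (w i * (⟪k i, v⟫ * ⟪g i, d⟫)))
        ≤ ∑ i, (w i * (⟪k i, v⟫ * ⟪k i, v⟫) + w i * (⟪g i, d⟫ * ⟪g i, d⟫)) := by
      refine Finset.sum_le_sum fun i _ ↦ ?_
      nlinarith [mul_nonneg (hw i) (mul_self_nonneg (⟪k i, v⟫ - ⟪g i, d⟫))]
    rw [← Finset.mul_sum, Finset.sum_add_distrib, ← h1, ← h2, ← h3] at h4
    linarith

lemma image_closedBall_compact (cX : X ≃L[ℝ] E) : IsCompact (cX '' closedBall 0 1) :=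
  (isCompact_closedBall 0 1).image cX.continuous

variable [FiniteDimensional ℝ Y]

/-- The volume inequality. -/
lemma measure_le (e : SphereExt F G) {cX : X ≃L[ℝ] E} {cY : Y ≃L[ℝ] E} {C : ℝ≥0} {P : E → E}
    (hP : LipschitzWith C P) (hbd : ∀ u, ‖u‖ = 1 → P (cX u) = cY (F u)) :
    μ (cY '' closedBall 0 1)
      ≤ ∫⁻ x in cX '' closedBall 0 1, ENNReal.ofReal |(fderiv ℝ P x).det| ∂μ := by
  set Φ : E → E := fun y ↦ cX (G (cY.symm y))
  set Ψ : E → E := fun x ↦ cY (F (cX.symm x))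
  set π : E → E := fun y ↦ cY (retract (cY.symm y))
  have hΦ : LipschitzWith _ Φ :=
    (cX : X →L[ℝ] E).lipschitz.comp (e.symm.lipschitz.comp (cY.symm : E →L[ℝ] Y).lipschitz)
  have hΨ : LipschitzWith _ Ψ :=
    (cY : Y →L[ℝ] E).lipschitz.comp (e.lipschitz.comp (cX.symm : E →L[ℝ] X).lipschitz)
  have hπ : LipschitzWith _ π :=
    (cY : Y →L[ℝ] E).lipschitz.comp (retract_lipschitz.comp (cY.symm : E →L[ℝ] Y).lipschitz)
  set K : E → E := fun y ↦ P (Φ (π y)) + (y - π y)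
  have hK : LipschitzWith _ K := (hP.comp (hΦ.comp hπ)).add (LipschitzWith.id.sub hπ)
  have hfix : ∀ y ∉ cY '' closedBall 0 1, K y = y := by
    intro y hy
    have h1 : 1 < ‖cY.symm y‖ := by
      by_contra hle
      exact hy ⟨cY.symm y, mem_closedBall_zero_iff.mpr (not_lt.mp hle), cY.apply_symm_apply y⟩
    have h2 := norm_retract_of_lt h1
    have h3 : P (Φ (π y)) = π y := by
      simp only [Φ, π, cY.symm_apply_apply]
      rw [hbd _ (by rw [e.symm.hnorm, h2]), e.right]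
    simp [K, h3]
  refine (measure_le_lintegral_det μ hK (image_closedBall_compact cY) hfix).trans ?_
  set Ω := cY '' ball 0 1
  have hΩo : IsOpen Ω := cY.isOpenMap _ isOpen_ball
  have hΩeq : Ω =ᵐ[μ] cY '' closedBall 0 1 := by
    have hnull : μ (frontier (cY '' closedBall 0 1)) = 0 :=
      ((convex_closedBall (0 : Y) 1).linear_image cY.toLinearMap).addHaar_frontier μ
    have hint : interior (cY '' closedBall 0 1) = Ω := by
      exact (cY.toHomeomorph.image_interior (closedBall 0 1)).symm.trans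
        (by rw [interior_closedBall _ one_ne_zero]; rfl)
    refine ae_eq_set.mpr ⟨?_, measure_mono_null ?_ hnull⟩
    · rw [sdiff_eq_empty.mpr (image_mono ball_subset_closedBall), measure_empty]
    · rw [frontier, hint]
      exact sdiff_subset_sdiff_left subset_closure
  rw [← setLIntegral_congr hΩeq]
  set Ω' := Ω ∩ {y | DifferentiableAt ℝ Φ y}
  have hΩ'm : MeasurableSet Ω' := hΩo.measurableSet.inter (measurableSet_of_differentiableAt ℝ Φ)
  have hdΦ : ∀ᵐ y ∂μ, DifferentiableAt ℝ Φ y := hΦ.ae_differentiableAt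
  have hΩ'eq : Ω' =ᵐ[μ] Ω := by
    filter_upwards [hdΦ] with y hy
    exact propext ⟨fun h ↦ h.1, fun h ↦ ⟨h, hy⟩⟩
  rw [← setLIntegral_congr hΩ'eq]
  have hΨΦ : ∀ y, Ψ (Φ y) = y := fun y ↦ by simp [Ψ, Φ, e.right]
  have hchain : ∀ᵐ y ∂μ, DifferentiableAt ℝ P (Φ y) := by
    have hbad : μ {x | ¬DifferentiableAt ℝ P x} = 0 := ae_iff.mp hP.ae_differentiableAt
    refine ae_iff.mpr (measure_mono_null (fun y hy ↦ ?_) (image_null μ hΨ hbad))
    exact ⟨Φ y, hy, hΨΦ y⟩
  have hbound : ∫⁻ y in Ω', ENNReal.ofReal |(fderiv ℝ K y).det| ∂μ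
      = ∫⁻ y in Ω', ENNReal.ofReal |(fderiv ℝ Φ y).det|
          * ENNReal.ofReal |(fderiv ℝ P (Φ y)).det| ∂μ := by
    refine setLIntegral_congr_fun_ae hΩ'm ?_
    filter_upwards [hchain] with y hy hy'
    have hev : K =ᶠ[𝓝 y] P ∘ Φ := by
      filter_upwards [hΩo.mem_nhds hy'.1] with z hz
      obtain ⟨u, hu, rfl⟩ := hz
      have : retract u = u := retract_of_mem (mem_ball_zero_iff.mp hu).le
      simp [K, π, this]
    rw [hev.fderiv_eq, fderiv_comp y hy hy'.2, ← ENNReal.ofReal_mul (abs_nonneg _), ← abs_mul]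
    congr 2
    rw [mul_comm]
    exact LinearMap.det_comp _ _
  rw [hbound]
  rw [← lintegral_image_eq_lintegral_abs_det_fderiv_mul μ hΩ'm (f' := fderiv ℝ Φ)
    (fun y hy ↦ hy.2.hasFDerivAt.hasFDerivWithinAt)
    (Function.LeftInverse.injective hΨΦ).injOn (fun x ↦ ENNReal.ofReal |(fderiv ℝ P x).det|)]
  refine lintegral_mono_set ?_
  rintro _ ⟨_, ⟨⟨u, hu, rfl⟩, _⟩, rfl⟩
  refine ⟨G u, mem_closedBall_zero_iff.mpr ?_, by simp [Φ]⟩
  rw [e.symm.hnorm]
  exact (mem_ball_zero_iff.mp hu).le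

variable {cX : X ≃L[ℝ] E} {cY : Y ≃L[ℝ] E}

/-- The image of one isotropic ball is no larger than the other. -/
lemma measure_ball_le (e : SphereExt F G) (hX : Isotropic (dualBall cX))
    (hY : Isotropic (dualBall cY)) :
    μ (cY '' closedBall 0 1) ≤ μ (cX '' closedBall 0 1) := by
  obtain ⟨C, P, hP, hbd, hN⟩ := exists_extension μ e hY (cX := cX)
  refine (measure_le μ e hP hbd).trans ?_
  refine (lintegral_mono_ae ?_).trans_eq (setLIntegral_one _)
  refine ae_restrict_of_ae ?_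
  filter_upwards [hN] with x ⟨N, hN, hU⟩
  exact ENNReal.ofReal_le_one.mpr (hX.abs_det_le hN hU).1

/-- Distances in the isotropic structures do not grow. -/
lemma dist_le (e : SphereExt F G) (hX : Isotropic (dualBall cX)) (hY : Isotropic (dualBall cY))
    {u v : X} (hu : ‖u‖ = 1) (hv : ‖v‖ = 1) : ‖cY (F u) - cY (F v)‖ ≤ ‖cX u - cX v‖ := by
  let μ : Measure E := Measure.addHaar
  obtain ⟨C, P, hP, hbd, hN⟩ := exists_extension μ e hY (cX := cX)
  set B := cX '' closedBall 0 1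
  have hBfin : μ B ≠ ⊤ := (image_closedBall_compact cX).measure_lt_top.ne
  have hle : (fun x ↦ ENNReal.ofReal |(fderiv ℝ P x).det|) ≤ᵐ[μ.restrict B] fun _ ↦ 1 := by
    refine ae_restrict_of_ae ?_
    filter_upwards [hN] with x ⟨N, hN, hU⟩
    exact ENNReal.ofReal_le_one.mpr (hX.abs_det_le hN hU).1
  have hae : (fun x ↦ ENNReal.ofReal |(fderiv ℝ P x).det|) =ᵐ[μ.restrict B] fun _ ↦ 1 := by
    refine ae_eq_of_ae_le_of_lintegral_le hle ?_ aemeasurable_const ?_
    · exact ((lintegral_mono_ae hle).trans_lt (by rw [setLIntegral_one]; exact hBfin.lt_top)).ne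
    · rw [setLIntegral_one]
      exact (measure_ball_le μ e.symm hY hX).trans (measure_le μ e hP hbd)
  set Ω := cX '' ball 0 1
  have hiso : ∀ᵐ x ∂μ, x ∈ Ω → ∀ d, ‖fderiv ℝ P x d‖ = ‖d‖ := by
    filter_upwards [hN, (ae_restrict_iff' (image_closedBall_compact cX).measurableSet).mp hae]
      with x ⟨N, hN, hU⟩ h1 hx
    exact (hX.abs_det_le hN hU).2 (ENNReal.ofReal_eq_one.mp (h1 (image_mono ball_subset_closedBall hx)))
  set η := cY (F u) - cY (F v)
  have hcl : ∀ a : X, ‖a‖ = 1 → cX a ∈ closure Ω := fun a ha ↦ by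
    refine image_closure_subset_closure_image cX.continuous ⟨a, ?_, rfl⟩
    rw [closure_ball 0 one_ne_zero]
    exact mem_closedBall_zero_iff.mpr ha.le
  have hbnd := sub_le_of_ae_fderiv_le μ (h := fun x ↦ ⟪η, P x⟫)
    (C := ‖innerSL ℝ η‖₊ * C) ((innerSL ℝ η).lipschitz.comp hP)
    (cX.isOpenMap _ isOpen_ball) ((convex_ball (0 : X) 1).linear_image cX.toLinearMap)
    (hcl v hv) (v := cX u - cX v) (by simpa using hcl u hu) ⟨cX 0, ⟨0, by simp, rfl⟩⟩
    (c := ‖η‖ * ‖cX u - cX v‖) ?_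
  · rw [show cX v + (cX u - cX v) = cX u by abel, hbd u hu, hbd v hv, ← inner_sub_right,
      real_inner_self_eq_norm_mul_norm] at hbnd
    rcases (norm_nonneg η).eq_or_lt with h | h
    · rw [show ‖η‖ = 0 from h.symm]; positivity
    · exact le_of_mul_le_mul_left hbnd h
  · filter_upwards [hiso, (hP.ae_differentiableAt : ∀ᵐ x ∂μ, DifferentiableAt ℝ P x)]
      with x hx hxd hxm
    rw [show fderiv ℝ (fun x ↦ ⟪η, P x⟫) x = (innerSL ℝ η).comp (fderiv ℝ P x) from
      ((innerSL ℝ η).hasFDerivAt.comp x hxd.hasFDerivAt).fderiv]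
    exact (le_abs_self _).trans ((abs_real_inner_le_norm η _).trans_eq
      (congrArg (‖η‖ * ·) (hx hxm _)))

omit [MeasurableSpace E] [BorelSpace E] [FiniteDimensional ℝ Y] in
/-- A distance preserving correspondence of the two spheres is linear. -/
lemma exists_linear (e : SphereExt F G)
    (h : ∀ u v : X, ‖u‖ = 1 → ‖v‖ = 1 → ‖cY (F u) - cY (F v)‖ = ‖cX u - cX v‖)
    {u₀ : X} (hu₀ : ‖u₀‖ = 1) :
    ∃ T : X ≃ₗᵢ[ℝ] Y, ∀ u, ‖u‖ = 1 → T u = F u := by
  classical
  let S := {u : X // ‖u‖ = 1}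
  let d : S → E := fun u ↦ cX (u : X) - cX u₀
  let w : S → E := fun u ↦ cY (F u) - cY (F u₀)
  have hinner : ∀ u v, ⟪w u, w v⟫ = ⟪d u, d v⟫ := fun u v ↦ by
    have e1 := h u u₀ u.2 hu₀
    have e2 := h v u₀ v.2 hu₀
    have e3 := h u v u.2 v.2
    simp only [w, d]
    rw [real_inner_eq_norm_mul_self_add_norm_mul_self_sub_norm_sub_mul_self_div_two,
      real_inner_eq_norm_mul_self_add_norm_mul_self_sub_norm_sub_mul_self_div_two,
      sub_sub_sub_cancel_right, sub_sub_sub_cancel_right, e1, e2, e3]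
  let D : (S →₀ ℝ) →ₗ[ℝ] E := Finsupp.linearCombination ℝ d
  let W : (S →₀ ℝ) →ₗ[ℝ] E := Finsupp.linearCombination ℝ w
  have hnorm : ∀ c, ‖W c‖ = ‖D c‖ := fun c ↦ by
    have hW : ⟪W c, W c⟫ = ⟪D c, D c⟫ := by
      simp only [W, D, Finsupp.linearCombination_apply, Finsupp.sum, sum_inner]
      simp only [inner_sum, inner_smul_left, inner_smul_right, hinner]
    rw [norm_eq_sqrt_real_inner, norm_eq_sqrt_real_inner (D c), hW]
  have hsurj : Function.Surjective D := by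
    rw [← LinearMap.range_eq_top, Finsupp.range_linearCombination, eq_top_iff]
    intro y _
    obtain ⟨a, rfl⟩ := cX.surjective y
    have hu₀mem : cX u₀ ∈ Submodule.span ℝ (range d) := by
      have hmem : d ⟨-u₀, by rw [norm_neg]; exact hu₀⟩ ∈ Submodule.span ℝ (range d) :=
        Submodule.subset_span (mem_range_self _)
      have := Submodule.smul_mem _ (-(1 / 2) : ℝ) hmem
      simp only [d, map_neg] at this
      convert this using 1
      module
    rcases eq_or_ne a 0 with rfl | ha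
    · simp
    · have hmem : d ⟨‖a‖⁻¹ • a, by simp [norm_smul, ha]⟩ ∈ Submodule.span ℝ (range d) :=
        Submodule.subset_span (mem_range_self _)
      have := Submodule.smul_mem _ ‖a‖ (Submodule.add_mem _ hmem hu₀mem)
      simpa [d, smul_smul, ha] using this
  obtain ⟨s, hs⟩ := D.exists_rightInverse_of_surjective (LinearMap.range_eq_top.mpr hsurj)
  let T : E →ₗ[ℝ] E := W ∘ₗ s
  have hTD : ∀ c, T (D c) = W c := fun c ↦ by
    have h1 : D (s (D c) - c) = 0 := by
      rw [map_sub, sub_eq_zero]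
      exact LinearMap.congr_fun hs (D c)
    have h2 := hnorm (s (D c) - c)
    rw [h1, norm_zero, norm_eq_zero, map_sub, sub_eq_zero] at h2
    exact h2
  have hTd : ∀ u, T (d u) = w u := fun u ↦ by simpa [D, W] using hTD (Finsupp.single u 1)
  have hTn : ∀ y, ‖T y‖ = ‖y‖ := fun y ↦ by
    obtain ⟨c, rfl⟩ := hsurj y
    rw [hTD, hnorm]
  set c := cY (F u₀) - T (cX u₀)
  have haff : ∀ u, ‖u‖ = 1 → cY (F u) = T (cX u) + c := fun u hu ↦ by
    have := hTd ⟨u, hu⟩
    simp only [d, w, map_sub] at this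
    simp only [c]
    rw [← add_eq_of_eq_sub' this.symm] ; abel
  -- central symmetry kills the translation
  have hstep : ∀ u, ‖u‖ = 1 → ∃ u', ‖u'‖ = 1 ∧ T (cX u') = T (cX u) + (2 : ℝ) • c := fun u hu ↦ by
    refine ⟨-G (-F u), by rw [norm_neg, e.symm.hnorm, norm_neg, e.hnorm, hu], ?_⟩
    have h1 := haff (G (-F u)) (by rw [e.symm.hnorm, norm_neg, e.hnorm, hu])
    rw [e.right, map_neg, haff u hu] at h1
    rw [map_neg, map_neg, eq_sub_of_add_eq h1.symm]
    module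
  have hiter : ∀ m : ℕ, ∃ u', ‖u'‖ = 1 ∧ T (cX u') = T (cX u₀) + (2 * m : ℝ) • c := by
    intro m
    induction m with
    | zero => exact ⟨u₀, hu₀, by simp⟩
    | succ k ih =>
      obtain ⟨u, hu, hTu⟩ := ih
      obtain ⟨u', hu', hTu'⟩ := hstep u hu
      exact ⟨u', hu', by rw [hTu', hTu]; push_cast; module⟩
  have hc : c = 0 := by
    by_contra hne
    obtain ⟨m, hm⟩ := exists_nat_gt (‖(cX : X →L[ℝ] E)‖ / ‖c‖)
    rw [div_lt_iff₀ (norm_pos_iff.mpr hne)] at hm
    obtain ⟨u', hu', hTu⟩ := hiter m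
    have h1 : ‖(2 * m : ℝ) • c‖ ≤ 2 * ‖(cX : X →L[ℝ] E)‖ := by
      rw [show (2 * m : ℝ) • c = T (cX u') - T (cX u₀) by rw [hTu]; abel]
      refine (norm_sub_le _ _).trans ?_
      rw [hTn, hTn]
      have a1 := (cX : X →L[ℝ] E).le_opNorm u'
      have a2 := (cX : X →L[ℝ] E).le_opNorm u₀
      simp [hu', hu₀] at a1 a2
      linarith
    rw [norm_smul, Real.norm_eq_abs, abs_of_nonneg (by positivity)] at h1
    linarith
  let L : X →ₗ[ℝ] Y := cY.symm.toLinearMap ∘ₗ T ∘ₗ cX.toLinearMap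
  have hL : ∀ u, ‖u‖ = 1 → L u = F u := fun u hu ↦ by
    show cY.symm (T (cX u)) = F u
    rw [← add_zero (T (cX u)), ← hc, ← haff u hu, cY.symm_apply_apply]
  have hLn : ∀ a, ‖L a‖ = ‖a‖ := fun a ↦ by
    rcases eq_or_ne a 0 with rfl | ha
    · simp
    · have hn : ‖a‖ ≠ 0 := norm_ne_zero_iff.mpr ha
      have hu : ‖‖a‖⁻¹ • a‖ = 1 := by simp [norm_smul, ha]
      calc ‖L a‖ = ‖L (‖a‖ • ‖a‖⁻¹ • a)‖ := by rw [smul_inv_smul₀ hn]
        _ = ‖a‖ := by rw [map_smul, norm_smul, hL _ hu, e.hnorm, hu, norm_norm, mul_one]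
  have hLs : Function.Surjective L := fun y ↦ by
    rcases eq_or_ne y 0 with rfl | hy
    · exact ⟨0, map_zero L⟩
    · refine ⟨‖y‖ • G (‖y‖⁻¹ • y), ?_⟩
      rw [map_smul, hL _ (by rw [e.symm.hnorm]; simp [norm_smul, hy]), e.right,
        smul_inv_smul₀ (norm_ne_zero_iff.mpr hy)]
  exact ⟨LinearIsometryEquiv.ofSurjective ⟨L, hLn⟩ hLs, hL⟩

end Vale.Agent.P084.Fin
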